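import Mathlib

/-!
# Continuous logarithms and the variation of the logarithm along a curve
-/

namespace Vale.Agent.Planar

open Set Complex

/-- `g` is a continuous logarithm of `f` on `K`. -/
def IsLift {X : Type*} [TopologicalSpace X] (f g : X → ℂ) (K : Set X) : Prop :=
  ContinuousOn g K ∧ ∀ x ∈ K, exp (g x) = f x

theorem exists_lift {X : Type*} [NormedAddCommGroup X] [NormedSpace ℝ X] {K : Set X}
    (hK : Convex ℝ K) {f : X → ℂ} (hf : ContinuousOn f K) (h0 : ∀ x ∈ K, f x ≠ 0) :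
    ∃ g, IsLift f g K := by
  classical
  rcases K.eq_empty_or_nonempty with rfl | ⟨x₀, hx₀⟩
  · exact ⟨0, continuousOn_empty _, by simp⟩
  have : ContractibleSpace K := hK.contractibleSpace ⟨x₀, hx₀⟩
  have : LocallyPathConnectedSpace K := hK.locallyPathConnectedSpace
  have hx : f x₀ ≠ 0 := h0 _ hx₀
  lift x₀ to K using hx₀
  rcases isCoveringMapOn_exp.existsUnique_continuousMap_lifts
    ⟨K.domRestrict f, continuousOn_iff_continuous_domRestrict.mp hf⟩ (exp_log hx)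
    (fun x ↦ h0 x x.2) with ⟨F, ⟨-, hF⟩, -⟩
  obtain ⟨g, hg⟩ : ∃ g : X → ℂ, ∀ z : K, g z = F z :=
    ⟨fun z ↦ if hz : z ∈ K then F ⟨z, hz⟩ else 0, by simp⟩
  refine ⟨g, ?_, ?_⟩
  · rw [continuousOn_iff_continuous_domRestrict]
    convert! map_continuous F
    ext z
    exact hg z
  · intro x hx
    lift x to K using hx
    simpa [hg] using congr($hF x)

theorem const_of_exp_const {g : ℝ → ℂ} {a b : ℝ} (hab : a ≤ b) (hc : ContinuousOn g (Icc a b))
    {z : ℂ} (h : ∀ t ∈ Icc a b, exp (g t) = z) : g a = g b :=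
  isCoveringMap_exp.constOn_of_comp isPreconnected_Icc hc
    (fun s hs t ht => Subtype.ext (by simp [h s hs, h t ht])) (left_mem_Icc.2 hab)
    (right_mem_Icc.2 hab)

theorem IsLift.sub_eq {f g g' : ℝ → ℂ} {a b : ℝ} (hab : a ≤ b) (h : IsLift f g (Icc a b))
    (h' : IsLift f g' (Icc a b)) : g b - g a = g' b - g' a := by
  have hc : ContinuousOn (fun t => g t - g' t) (Icc a b) := h.1.sub h'.1
  have := const_of_exp_const hab hc (z := 1) (fun t ht => by
    rw [exp_sub, h.2 t ht, h'.2 t ht, div_self]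
    rw [← h.2 t ht]; exact exp_ne_zero _)
  linear_combination -this

open Classical in
/-- The variation of a continuous logarithm of `f` along `[a, b]`. -/
noncomputable def var (f : ℝ → ℂ) (a b : ℝ) : ℂ :=
  if h : ∃ g, IsLift f g (Icc a b) then h.choose b - h.choose a else 0

theorem var_eq {f g : ℝ → ℂ} {a b : ℝ} (hab : a ≤ b) (h : IsLift f g (Icc a b)) :
    var f a b = g b - g a := by
  have h' : ∃ g, IsLift f g (Icc a b) := ⟨g, h⟩
  rw [var, dif_pos h']
  exact IsLift.sub_eq hab h'.choose_spec h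

theorem IsLift.mono {X : Type*} [TopologicalSpace X] {f g : X → ℂ} {K L : Set X}
    (h : IsLift f g K) (hL : L ⊆ K) : IsLift f g L :=
  ⟨h.1.mono hL, fun x hx => h.2 x (hL hx)⟩

theorem IsLift.comp {X Y : Type*} [TopologicalSpace X] [TopologicalSpace Y] {f g : X → ℂ}
    {K : Set X} (h : IsLift f g K) {φ : Y → X} {L : Set Y} (hφ : Continuous φ)
    (hL : ∀ y ∈ L, φ y ∈ K) : IsLift (fun y => f (φ y)) (fun y => g (φ y)) L :=
  ⟨h.1.comp hφ.continuousOn hL, fun y hy => h.2 _ (hL y hy)⟩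

theorem IsLift.neg {X : Type*} [TopologicalSpace X] {f g : X → ℂ} {K : Set X}
    (h : IsLift f g K) : IsLift (fun x => - f x) (fun x => g x + Real.pi * I) K :=
  ⟨h.1.add continuousOn_const, fun x hx => by rw [exp_add, h.2 x hx, exp_pi_mul_I]; ring⟩

theorem IsLift.congr {X : Type*} [TopologicalSpace X] {f f' g : X → ℂ} {K : Set X}
    (h : IsLift f g K) (hf : ∀ x ∈ K, f x = f' x) : IsLift f' g K :=
  ⟨h.1, fun x hx => by rw [h.2 x hx, hf x hx]⟩

theorem exists_lift_Icc {f : ℝ → ℂ} {a b : ℝ} (hf : Continuous f)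
    (h0 : ∀ t ∈ Icc a b, f t ≠ 0) : ∃ g, IsLift f g (Icc a b) :=
  exists_lift (convex_Icc a b) hf.continuousOn h0

theorem var_add {f : ℝ → ℂ} {a b c : ℝ} (hab : a ≤ b) (hbc : b ≤ c) (hf : Continuous f)
    (h0 : ∀ t ∈ Icc a c, f t ≠ 0) : var f a c = var f a b + var f b c := by
  obtain ⟨g, hg⟩ := exists_lift_Icc hf h0
  rw [var_eq (hab.trans hbc) hg, var_eq hab (hg.mono (Icc_subset_Icc le_rfl hbc)),
    var_eq hbc (hg.mono (Icc_subset_Icc hab le_rfl))]
  ring

theorem var_congr {f f' : ℝ → ℂ} {a b : ℝ} (hab : a ≤ b) (h : ∀ t ∈ Icc a b, f t = f' t) :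
    var f a b = var f' a b := by
  by_cases h1 : ∃ g, IsLift f g (Icc a b)
  · obtain ⟨g, hg⟩ := h1
    rw [var_eq hab hg, var_eq hab (hg.congr h)]
  · have h2 : ¬ ∃ g, IsLift f' g (Icc a b) := fun ⟨g, hg⟩ =>
      h1 ⟨g, hg.congr fun t ht => (h t ht).symm⟩
    rw [var, var, dif_neg h1, dif_neg h2]

/-- reversing the direction of a curve -/
theorem var_reverse {f f' : ℝ → ℂ} {a b a' b' : ℝ} (hab : a ≤ b) (ha : a' = 1 - b)
    (hb : b' = 1 - a) (hf : Continuous f) (h0 : ∀ t ∈ Icc a b, f t ≠ 0)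
    (h : ∀ t ∈ Icc a' b', f' t = f (1 - t)) : var f' a' b' = - var f a b := by
  obtain ⟨g, hg⟩ := exists_lift_Icc hf h0
  have h1 : IsLift f' (fun t => g (1 - t)) (Icc a' b') :=
    (hg.comp (φ := fun t : ℝ => 1 - t) (L := Icc a' b') (by fun_prop)
      (fun t ht => ⟨by linarith [ht.2], by linarith [ht.1]⟩)).congr fun t ht => (h t ht).symm
  rw [var_eq hab hg, var_eq (by linarith) h1, ha, hb]
  simp

/-- the rectangle lemma -/
theorem var_rect {f g : ℝ → ℂ} {a b c d : ℝ} (hab : a ≤ b) (hcd : c ≤ d) (hf : Continuous f)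
    (hg : Continuous g) (h0 : ∀ s ∈ Icc a b, ∀ t ∈ Icc c d, g t ≠ f s) :
    var (fun t => g t - f b) c d - var (fun t => g t - f a) c d =
      var (fun s => g d - f s) a b - var (fun s => g c - f s) a b := by
  obtain ⟨B, hB⟩ := exists_lift (K := Icc a b ×ˢ Icc c d) (f := fun x : ℝ × ℝ => g x.2 - f x.1)
    ((convex_Icc a b).prod (convex_Icc c d)) (by fun_prop)
    (fun x hx => sub_ne_zero.2 (h0 _ hx.1 _ hx.2))
  rw [var_eq hcd (hB.comp (φ := fun t => (b, t)) (by fun_prop)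
      (fun t ht => ⟨right_mem_Icc.2 hab, ht⟩)),
    var_eq hcd (hB.comp (φ := fun t => (a, t)) (by fun_prop)
      (fun t ht => ⟨left_mem_Icc.2 hab, ht⟩)),
    var_eq hab (hB.comp (φ := fun s => (s, d)) (by fun_prop)
      (fun t ht => ⟨ht, right_mem_Icc.2 hcd⟩)),
    var_eq hab (hB.comp (φ := fun s => (s, c)) (by fun_prop)
      (fun t ht => ⟨ht, left_mem_Icc.2 hcd⟩))]
  ring

theorem one_sub_mem_slitPlane {x : ℂ} (hx : ‖x‖ < 1) : 1 - x ∈ slitPlane := by
  left
  have := (abs_le.1 (abs_re_le_norm x)).2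
  simp only [sub_re, one_re]
  linarith

/-- the disc lemma: moving the base point inside a disc avoided by the curve -/
theorem var_disc {f : ℝ → ℂ} {a b : ℝ} {q w : ℂ} (hab : a ≤ b) (hf : Continuous f)
    (h0 : ∀ t ∈ Icc a b, ‖w‖ < ‖f t - q‖) :
    var (fun t => f t - (q + w)) a b = var (fun t => f t - q) a b +
      log (1 - w / (f b - q)) - log (1 - w / (f a - q)) := by
  have hne : ∀ t ∈ Icc a b, f t - q ≠ 0 := fun t ht h => by
    have := h0 t ht
    rw [h, norm_zero] at this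
    exact absurd this (not_lt.2 (norm_nonneg _))
  have hs : ∀ t ∈ Icc a b, 1 - w / (f t - q) ∈ slitPlane := fun t ht =>
    one_sub_mem_slitPlane (by
      rw [norm_div, div_lt_one (norm_pos_iff.2 (hne t ht))]; exact h0 t ht)
  obtain ⟨g, hg⟩ := exists_lift_Icc (f := fun t => f t - q) (by fun_prop) hne
  have h1 : IsLift (fun t => f t - (q + w)) (fun t => g t + log (1 - w / (f t - q)))
      (Icc a b) := by
    refine ⟨hg.1.add (ContinuousOn.clog ?_ hs), fun t ht => ?_⟩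
    · exact continuousOn_const.sub (continuousOn_const.div (by fun_prop) hne)
    · rw [exp_add, hg.2 t ht, exp_log (slitPlane_ne_zero (hs t ht))]
      have := hne t ht
      field_simp
      ring
  rw [var_eq hab h1, var_eq hab hg]
  ring

/-- the triangle lemma for an injective curve on `[-1, 2]` which is affine near both ends -/
theorem var_triangle {Γ : ℝ → ℂ} (hΓ : Continuous Γ) (hinj : InjOn Γ (Icc (-1) 2)) {x y : ℂ}
    (h1 : ∀ s ∈ Icc (-1 : ℝ) (-1 / 2), Γ (s + 1 / 2) - Γ s = x)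
    (h2 : ∀ s ∈ Icc (1 : ℝ) (3 / 2), Γ (s + 1 / 2) - Γ s = y) :
    var (fun t => Γ t - Γ (3 / 2)) (-1) 1 - var (fun t => Γ t - Γ (-1 / 2)) 0 2 =
      var (fun s => Γ 2 - Γ s) (-1 / 2) (3 / 2) -
        var (fun s => Γ (-1) - Γ s) (-1 / 2) (3 / 2) := by
  have hconv : Convex ℝ {x : ℝ × ℝ | -1 ≤ x.1 ∧ x.1 < x.2 ∧ x.2 ≤ 2} := by
    rintro ⟨s, t⟩ ⟨hs1, hs2, hs3⟩ ⟨s', t'⟩ ⟨ht1, ht2, ht3⟩ a b ha hb hab
    simp only [mem_ofPred_eq, Prod.smul_mk, Prod.mk_add_mk, smul_eq_mul] at *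
    refine ⟨by nlinarith, ?_, by nlinarith⟩
    rcases ha.eq_or_lt with rfl | ha'
    · have : b = 1 := by linarith
      subst this; linarith
    · nlinarith
  obtain ⟨A, hA⟩ := exists_lift hconv (f := fun x : ℝ × ℝ => Γ x.2 - Γ x.1) (by fun_prop)
    (fun x hx h => by
      obtain ⟨h1, h2, h3⟩ := hx
      have := hinj ⟨by linarith, h3⟩ ⟨h1, by linarith⟩ (sub_eq_zero.1 h)
      linarith)
  have e1 : var (fun t => Γ t - Γ (-1 / 2)) 0 2 = A (-1 / 2, 2) - A (-1 / 2, 0) :=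
    var_eq (by norm_num) (hA.comp (φ := fun t => (-1 / 2, t)) (by fun_prop)
      (fun t ht => ⟨by norm_num, by linarith [ht.1], ht.2⟩))
  have e2 : var (fun t => Γ t - Γ (3 / 2)) (-1) 1 =
      (A (1, 3 / 2) + Real.pi * I) - (A (-1, 3 / 2) + Real.pi * I) :=
    var_eq (by norm_num) ((hA.comp (φ := fun t => (t, 3 / 2)) (by fun_prop)
      (fun t ht => ⟨ht.1, by linarith [ht.2], by norm_num⟩)).neg.congr fun t _ => by simp)
  have e3 : var (fun s => Γ 2 - Γ s) (-1 / 2) (3 / 2) = A (3 / 2, 2) - A (-1 / 2, 2) :=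
    var_eq (by norm_num) (hA.comp (φ := fun s => (s, 2)) (by fun_prop)
      (fun t ht => ⟨by linarith [ht.1], by linarith [ht.2], le_rfl⟩))
  have e4 : var (fun s => Γ (-1) - Γ s) (-1 / 2) (3 / 2) =
      (A (-1, 3 / 2) + Real.pi * I) - (A (-1, -1 / 2) + Real.pi * I) :=
    var_eq (by norm_num) ((hA.comp (φ := fun t => (-1, t)) (by fun_prop)
      (fun t ht => ⟨le_rfl, by linarith [ht.1], by linarith [ht.2]⟩)).neg.congr
        fun t _ => by simp)
  have e5 : A (-1, -1 + 1 / 2) = A (-1 / 2, -1 / 2 + 1 / 2) := by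
    have := hA.comp (φ := fun s : ℝ => (s, s + 1 / 2)) (L := Icc (-1) (-1 / 2)) (by fun_prop)
      (fun t ht => ⟨ht.1, by linarith, by linarith [ht.2]⟩)
    exact const_of_exp_const (by norm_num) this.1 (z := x)
      (fun t ht => by rw [this.2 t ht]; exact h1 t ht)
  have e6 : A (1, 1 + 1 / 2) = A (3 / 2, 3 / 2 + 1 / 2) := by
    have := hA.comp (φ := fun s : ℝ => (s, s + 1 / 2)) (L := Icc 1 (3 / 2)) (by fun_prop)
      (fun t ht => ⟨by linarith [ht.1], by linarith, by linarith [ht.2]⟩)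
    exact const_of_exp_const (by norm_num) this.1 (z := y)
      (fun t ht => by rw [this.2 t ht]; exact h2 t ht)
  norm_num at e5 e6
  rw [e1, e2, e3, e4]
  norm_num
  linear_combination e6 - e5

end Vale.Agent.Planar
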